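import Vale.Agent.P236Y.Zer2
import Vale.Agent.P236Xd.L0

/-!
# P236 / Y : the data of the level zero
-/

namespace Vale.Agent.P236Y

open Vale.Agent.P236X

set_option maxRecDepth 100000 in
theorem ck00_L0 : ck00 L0 = true := by decide +kernel

end Vale.Agent.P236Y
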