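import Vale.Agent.P236Y.Zero
import Vale.Agent.P236Yt.W0

/-!
# P236 / Y : the check of the level zero
-/

namespace Vale.Agent.P236Y

open Vale.Agent.P236A Vale.Agent.P236C Vale.Agent.P236T Vale.Agent.P236X

theorem chk0_ok : chk0 W0 = true := by decide +kernel

/-- **The rows of the level zero.** -/
theorem isR_zero {δ : Mat (Io 23) (Av K9)} (hδ : ∀ (k : Fin 64) J, mz 3 J ≤ 188 →
    δ (0, 0) (1, k) J = if J = Finsupp.single 0 (gw 1 k) then 1 else 0) {a n : ℕ} (h : a ≤ n) :
    IsR lay0 δ 0 a n (RW (B0 0) W0) :=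
  isR_of h fun k _ _ => good_zero hδ chk0_ok a n k

end Vale.Agent.P236Y
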